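import Crest.Agent.Rec.Defs

/-!
# S0112, piece P2a (second half): translation / reflection invariance of `ultraMean ω` and
"some value is at least the mean", as standalone primed lemmas
-/

set_option autoImplicit false

namespace Crest.Agent.Rec

open Crest.OpAlg MeasureTheory

namespace MeanAlt

/-- The window average as an interval integral. -/
theorem windowMean_eq (f : ℝ → ℝ) (k : ℕ) :
    windowMean f k = (2 * (k : ℝ))⁻¹ * ∫ t in (-(k : ℝ))..(k : ℝ), f t := by
  have hk : -(k : ℝ) ≤ (k : ℝ) := by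
    have : (0 : ℝ) ≤ (k : ℝ) := Nat.cast_nonneg k
    linarith
  unfold windowMean
  rw [setAverage_eq, intervalIntegral.integral_of_le hk, integral_Icc_eq_integral_Ioc,
    smul_eq_mul]
  congr 2
  rw [Measure.real, Real.volume_Icc, ENNReal.toReal_ofReal (by linarith)]
  ring

theorem abs_windowMean_le {f : ℝ → ℝ} {B : ℝ} (hB : ∀ t, |f t| ≤ B) (k : ℕ) :
    |windowMean f k| ≤ B := by
  have hB0 : 0 ≤ B := (abs_nonneg (f 0)).trans (hB 0)
  rw [windowMean_eq, abs_mul]
  have h1 : |∫ t in (-(k : ℝ))..(k : ℝ), f t| ≤ B * |(k : ℝ) - -(k : ℝ)| := by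
    have := intervalIntegral.norm_integral_le_of_norm_le_const (a := -(k : ℝ)) (b := (k : ℝ))
      (C := B) (f := f) (fun x _ => by rw [Real.norm_eq_abs]; exact hB x)
    rwa [Real.norm_eq_abs] at this
  have hk0 : (0 : ℝ) ≤ (k : ℝ) := Nat.cast_nonneg k
  have h2 : |(k : ℝ) - -(k : ℝ)| = 2 * (k : ℝ) := by
    rw [sub_neg_eq_add, abs_of_nonneg (by linarith)]; ring
  rw [h2] at h1
  rcases Nat.eq_zero_or_pos k with hk | hk
  · subst hk
    simp [hB0]
  · have hk' : (0 : ℝ) < 2 * (k : ℝ) := by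
      have : (0 : ℝ) < (k : ℝ) := by exact_mod_cast hk
      linarith
    rw [abs_of_pos (inv_pos.mpr hk')]
    calc (2 * (k : ℝ))⁻¹ * |∫ t in (-(k : ℝ))..(k : ℝ), f t|
        ≤ (2 * (k : ℝ))⁻¹ * (B * (2 * (k : ℝ))) :=
          mul_le_mul_of_nonneg_left h1 (inv_pos.mpr hk').le
      _ = B := by field_simp

/-- For bounded `f` the window averages converge along `ω` to `ultraMean ω f`. -/
theorem tendsto_windowMean' (ω : Ultrafilter ℕ) {f : ℝ → ℝ} {B : ℝ} (hB : ∀ t, |f t| ≤ B) :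
    Filter.Tendsto (windowMean f) (ω : Filter ℕ) (nhds (ultraMean ω f)) := by
  have hmem : ∀ k, windowMean f k ∈ Set.Icc (-B) B := fun k =>
    abs_le.mp (abs_windowMean_le hB k)
  have hle : ((ω.map (windowMean f) : Ultrafilter ℝ) : Filter ℝ) ≤
      Filter.principal (Set.Icc (-B) B) := by
    rw [Filter.le_principal_iff]
    exact Filter.mem_map.mpr (Filter.Eventually.of_forall hmem)
  obtain ⟨x, -, hx⟩ := isCompact_Icc.ultrafilter_le_nhds (ω.map (windowMean f)) hle
  have hx' : Filter.Tendsto (windowMean f) (ω : Filter ℕ) (nhds x) := hx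
  unfold ultraMean
  rw [hx'.limUnder_eq]
  exact hx'

/-- Reflection invariance (exact on every window). -/
theorem ultraMean_reflect' (ω : Ultrafilter ℕ) (f : ℝ → ℝ) :
    ultraMean ω (fun t => f (-t)) = ultraMean ω f := by
  have h : windowMean (fun t => f (-t)) = windowMean f := by
    funext k
    rw [windowMean_eq, windowMean_eq, intervalIntegral.integral_comp_neg, neg_neg]
  unfold ultraMean
  rw [h]

/-- If `f ≤ C` everywhere then the window averages over nondegenerate windows are `≤ C`. -/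
theorem windowMean_le {f : ℝ → ℝ} (hc : Continuous f) {C : ℝ} (hC : ∀ t, f t ≤ C) {k : ℕ}
    (hk : 1 ≤ k) : windowMean f k ≤ C := by
  have hk0 : (0 : ℝ) < (k : ℝ) := by exact_mod_cast hk
  have hk' : (0 : ℝ) < 2 * (k : ℝ) := by linarith
  rw [windowMean_eq]
  have h1 : ∫ t in (-(k : ℝ))..(k : ℝ), f t ≤ ∫ t in (-(k : ℝ))..(k : ℝ), C :=
    intervalIntegral.integral_mono_on (by linarith) (hc.intervalIntegrable _ _)
      (continuous_const.intervalIntegrable _ _) (fun x _ => hC x)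
  rw [intervalIntegral.integral_const, smul_eq_mul] at h1
  calc (2 * (k : ℝ))⁻¹ * ∫ t in (-(k : ℝ))..(k : ℝ), f t
      ≤ (2 * (k : ℝ))⁻¹ * (((k : ℝ) - -(k : ℝ)) * C) :=
        mul_le_mul_of_nonneg_left h1 (inv_pos.mpr hk').le
    _ = C := by field_simp; ring

theorem ultraMean_le_of_le' (ω : Ultrafilter ℕ) (hω : (ω : Filter ℕ) ≤ Filter.atTop)
    {f : ℝ → ℝ} (hc : Continuous f) {B₀ : ℝ} (hB₀ : ∀ t, |f t| ≤ B₀)
    {B : ℝ} (hB : ∀ t, f t ≤ B) : ultraMean ω f ≤ B := by
  refine le_of_tendsto (tendsto_windowMean' ω hB₀) ?_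
  have h1 : ∀ᶠ k in Filter.atTop, windowMean f k ≤ B :=
    (Filter.eventually_ge_atTop 1).mono (fun k hk => windowMean_le hc hB hk)
  exact hω h1

/-- Some value is at least the mean (up to `ε`). -/
theorem exists_ge_ultraMean' (ω : Ultrafilter ℕ) (hω : (ω : Filter ℕ) ≤ Filter.atTop)
    {f : ℝ → ℝ} (hc : Continuous f) {B₀ : ℝ} (hB₀ : ∀ t, |f t| ≤ B₀)
    {ε : ℝ} (hε : 0 < ε) : ∃ t, ultraMean ω f - ε ≤ f t := by
  by_contra hcon
  have h1 : ∀ t, f t ≤ ultraMean ω f - ε := by
    intro t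
    by_contra ht
    exact hcon ⟨t, (not_le.mp ht).le⟩
  have h2 := ultraMean_le_of_le' ω hω hc hB₀ h1
  linarith

/-- Translation invariance (`ω` free). -/
theorem ultraMean_translate' (ω : Ultrafilter ℕ) (hω : (ω : Filter ℕ) ≤ Filter.atTop)
    {f : ℝ → ℝ} (hc : Continuous f) {B : ℝ} (hB : ∀ t, |f t| ≤ B)
    (r : ℝ) : ultraMean ω (fun t => f (t + r)) = ultraMean ω f := by
  have hB0 : 0 ≤ B := (abs_nonneg (f 0)).trans (hB 0)
  have hT1 := tendsto_windowMean' ω (f := fun t => f (t + r)) (B := B) (fun t => hB (t + r))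
  have hT2 := tendsto_windowMean' ω hB
  -- the difference of the window averages tends to zero
  have hdiff : ∀ k : ℕ, 1 ≤ k →
      |windowMean (fun t => f (t + r)) k - windowMean f k| ≤ B * |r| / (k : ℝ) := by
    intro k hk
    have hk0 : (0 : ℝ) < (k : ℝ) := by exact_mod_cast hk
    have hk' : (0 : ℝ) < 2 * (k : ℝ) := by linarith
    rw [windowMean_eq, windowMean_eq, intervalIntegral.integral_comp_add_right, ← mul_sub]
    have hi : ∀ a b : ℝ, IntervalIntegrable f volume a b := fun a b =>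
      hc.intervalIntegrable a b
    rw [intervalIntegral.integral_interval_sub_interval_comm (hi _ _) (hi _ _) (hi _ _)]
    have hb : ∀ a b : ℝ, |∫ t in a..b, f t| ≤ B * |b - a| := by
      intro a b
      have := intervalIntegral.norm_integral_le_of_norm_le_const (a := a) (b := b)
        (C := B) (f := f) (fun x _ => by rw [Real.norm_eq_abs]; exact hB x)
      rwa [Real.norm_eq_abs] at this
    have h1 := hb (-(k : ℝ) + r) (-(k : ℝ))
    have h2 := hb ((k : ℝ) + r) (k : ℝ)
    have e1 : |-(k : ℝ) - (-(k : ℝ) + r)| = |r| := by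
      rw [show -(k : ℝ) - (-(k : ℝ) + r) = -r by ring, abs_neg]
    have e2 : |(k : ℝ) - ((k : ℝ) + r)| = |r| := by
      rw [show (k : ℝ) - ((k : ℝ) + r) = -r by ring, abs_neg]
    rw [e1] at h1
    rw [e2] at h2
    rw [abs_mul, abs_of_pos (inv_pos.mpr hk')]
    have h3 : |(∫ t in (-(k : ℝ) + r)..(-(k : ℝ)), f t) - ∫ t in ((k : ℝ) + r)..(k : ℝ), f t| ≤
        2 * (B * |r|) := by
      have := abs_sub (∫ t in (-(k : ℝ) + r)..(-(k : ℝ)), f t)
        (∫ t in ((k : ℝ) + r)..(k : ℝ), f t)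
      linarith
    calc (2 * (k : ℝ))⁻¹ * |(∫ t in (-(k : ℝ) + r)..(-(k : ℝ)), f t) -
          ∫ t in ((k : ℝ) + r)..(k : ℝ), f t|
        ≤ (2 * (k : ℝ))⁻¹ * (2 * (B * |r|)) :=
          mul_le_mul_of_nonneg_left h3 (inv_pos.mpr hk').le
      _ = B * |r| / (k : ℝ) := by field_simp
  have hz : Filter.Tendsto (fun k : ℕ => windowMean (fun t => f (t + r)) k - windowMean f k)
      Filter.atTop (nhds 0) := by
    have h0 : Filter.Tendsto (fun k : ℕ => B * |r| / (k : ℝ)) Filter.atTop (nhds 0) :=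
      tendsto_const_div_atTop_nhds_zero_nat (B * |r|)
    refine squeeze_zero_norm' ?_ h0
    exact (Filter.eventually_ge_atTop 1).mono (fun k hk => by
      rw [Real.norm_eq_abs]; exact hdiff k hk)
  have hz' := hz.mono_left hω
  have hsub := hT1.sub hT2
  have huniq := tendsto_nhds_unique hsub hz'
  linarith

end MeanAlt

end Crest.Agent.Rec
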